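import Vale.Agent.P284.H894.V.Defs

/-!
# P284 (helper894): holomorphic maps `ℂᴺ → X` of finite order, `N` arbitrary. FROZEN.
-/

open scoped Manifold ContDiff ComplexConjugate
open Filter Set Metric MeasureTheory

noncomputable section

namespace Vale.Agent.P284.H894.F

open Vale.Agent.P272.K

variable {N n : ℕ} {X : Type} [TopologicalSpace X] [ChartedSpace (Cm n) X]

/-- The energy density `|dΦ|²` of a map `Φ : ℂᴺ → X` for the metric `w` (with the complex partial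
derivatives `∂Φ/∂ζ_j`, in the preferred chart at `Φ ζ`). -/
def enDensN (w : Chart n X → Cm n → Matrix (Fin n) (Fin n) ℂ) (Φ : Cm N → X) (ζ : Cm N) : ℝ :=
  (∑ j, ∑ k, ∑ l, w (chartAt (Cm n) (Φ ζ)) (chartAt (Cm n) (Φ ζ) (Φ ζ)) k l *
    dz j (fun ξ => chartAt (Cm n) (Φ ζ) (Φ ξ) k) ζ *
    conj (dz j (fun ξ => chartAt (Cm n) (Φ ζ) (Φ ξ) l) ζ)).re

/-- `Φ : ℂᴺ → X` is holomorphic, nondegenerate (at some point, its derivative with respect to some `n` of
the coordinates is invertible) and of finite order: the energy of the polydiscs of radius `r` is at most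
`C r ^ ρ`. -/
structure HasFiniteOrderN (w : Chart n X → Cm n → Matrix (Fin n) (Fin n) ℂ) (Φ : Cm N → X) :
    Prop where
  holo : ContMDiff 𝓘(ℂ, Cm N) 𝓘(ℂ, Cm n) ω Φ
  nondeg : ∃ (ζ : Cm N) (i : Fin n → Fin N),
    (Matrix.of fun k j => dz (i j) (fun ξ => chartAt (Cm n) (Φ ζ) (Φ ξ) k) ζ).det ≠ 0
  order : ∃ C ρ : ℝ, ∀ r : ℝ, 1 ≤ r →
    ∫ ζ in ball (0 : Cm N) r, enDensN w Φ ζ ≤ C * r ^ ρ

end Vale.Agent.P284.H894.F
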