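import Vale.Agent.P284.H894.F.DefsZ
import Vale.Agent.P284.H894.V.Defs2

/-!
# P284 (helper894): structure of the fundamental group, entire curves of finite order. FROZEN.
-/

open scoped Manifold ContDiff

noncomputable section

namespace Vale.Agent.P284.H894.F

open Vale.Agent.P272.K Vale.Agent.P284.H894.V

section
variable {n : ℕ} {X : Type} [TopologicalSpace X] [ChartedSpace (Cm n) X]

/-- For some `ρ`, the set of the points of `X` at which the velocities of the entire curves of order at
most `ρ` span the tangent space is dense in some nonempty open set. -/
def CurveSpan (w : Chart n X → Cm n → Matrix (Fin n) (Fin n) ℂ) : Prop :=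
  ∃ ρ : ℝ, (interior (closure {x : X |
    Submodule.span ℂ {v : Cm n | ∃ f, FiniteOrderCurve w x v ρ f} = ⊤})).Nonempty

/-- `X` has many entire curves of finite order: Zariski dense directions at one point, or directions
which span the tangent space at a somewhere dense set of points. -/
def ManyCurves (w : Chart n X → Cm n → Matrix (Fin n) (Fin n) ℂ) : Prop :=
  (∃ x : X, CurveDense w x) ∨ CurveSpan w

end

/-- `A` has a subgroup `G` of finite index which is an extension of `ℤᵐ`, `m ≤ 2 n`, by a finitely
generated group no subgroup of finite index of which maps onto `ℤ`. -/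
def AbelianByNonIndicable (n : ℕ) (A : Type) [Group A] : Prop :=
  ∃ (G : Subgroup A) (m : ℕ) (c : G →* Multiplicative (Fin m → ℤ)), G.FiniteIndex ∧ m ≤ 2 * n ∧
    Function.Surjective c ∧ Group.FG c.ker ∧ ¬ VirtIndicable c.ker

end Vale.Agent.P284.H894.F
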