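import Vale.Agent.P284.H894.F.DefsS
import Mathlib.Algebra.MvPolynomial.Eval
import Mathlib.RingTheory.MvPolynomial.Homogeneous

/-!
# P284 (helper894): entire curves of finite order with Zariski dense directions at a point. FROZEN.
-/

open scoped Manifold ContDiff

noncomputable section

namespace Vale.Agent.P284.H894.F

open Vale.Agent.P272.K

variable {n : ℕ} {X : Type} [TopologicalSpace X] [ChartedSpace (Cm n) X]

/-- For some `ρ`, no nonzero homogeneous polynomial vanishes at the velocities at `x` of all entire
curves of order at most `ρ` through `x`. -/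
def CurveDense (w : Chart n X → Cm n → Matrix (Fin n) (Fin n) ℂ) (x : X) : Prop :=
  ∃ ρ : ℝ, ∀ (k : ℕ) (P : MvPolynomial (Fin n) ℂ), P.IsHomogeneous k →
    (∀ v f, FiniteOrderCurve w x v ρ f → MvPolynomial.eval v P = 0) → P = 0

end Vale.Agent.P284.H894.F
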