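import Mathlib.AlgebraicTopology.FundamentalGroupoid.FundamentalGroup
import Mathlib.GroupTheory.Index
import Vale.Agent.P284.H894.G.Defs

/-!
# P284 (helper894): the image of the fundamental group of an open set, joined by entire curves. FROZEN.
-/

open scoped Manifold ContDiff

noncomputable section

namespace Vale.Agent.P284.H894.F

open Vale.Agent.P272.K Vale.Agent.P284.H894.G

/-- The image of `π₁(U, x)` in `π₁(X, x)`. -/
def piImage {X : Type} [TopologicalSpace X] (U : Set X) (x : X) (hx : x ∈ U) :
    Subgroup (FundamentalGroup X x) :=
  (FundamentalGroup.map (⟨Subtype.val, continuous_subtype_val⟩ : C(U, X)) ⟨x, hx⟩).range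

section
variable (n : ℕ) (X : Type) [TopologicalSpace X] [ChartedSpace (Cm n) X]

/-- There are an open set `U` containing `x` such that the image of `π₁(U, x)` in `π₁(X, x)` has finite
index, and a countable set `Q`, such that every point of `U` is joined by a chain of entire curves to a
point of `Q`. -/
def VirtCurveConnected (x : X) : Prop :=
  ∃ (U Q : Set X) (hx : x ∈ U), IsOpen U ∧ (piImage U x hx).FiniteIndex ∧
    Q.Countable ∧ ∀ y ∈ U, ∃ q ∈ Q, Chain n X y q

end

end Vale.Agent.P284.H894.F
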