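import Vale.Agent.P284.H894.F.YE
import Vale.Agent.P284.H894.F.DefsZ
import Vale.Agent.P284.H446.VA
import Vale.Agent.P284.H66.FDs4

/-! # P284 (helper894): one point with many entire curves of finite order -/

open scoped Manifold ContDiff
open Set Function

noncomputable section

namespace Vale.Agent.P284.H894.F

open Vale.Agent.P272.K Vale.Agent.P284.H248 Vale.Agent.P284.H894 Vale.Agent.P284.H894.G
  Vale.Agent.P284.H894.V Vale.Agent.P284.H409.A Vale.Agent.P284.H409.T Vale.Agent.P284.H119.Kaz
  Vale.Agent.P284.H446.K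

variable {n : ℕ} {X : Type} [TopologicalSpace X] [ChartedSpace (Cm n) X]
  [T2Space X] [CompactSpace X] [ConnectedSpace X] [IsManifold 𝓘(ℂ, Cm n) ω X]
  {w : Chart n X → Cm n → Matrix (Fin n) (Fin n) ℂ}

theorem phb_of_not_t (hw : IsKahler w) (E Γ : Type) [TopologicalSpace E] [ConnectedSpace E]
    [Group Γ] [MulAction Γ E] (p : E → X) (hp : IsGalois Γ p) (h : ¬ PropertyT Γ) :
    HasPHB p w :=
  H977.T.part1T n X w hw E Γ p hp fun hK => h (propertyT_of hK)

theorem phb_of_liouville (hw : IsKahler w) : LiouvilleHarmonic w := by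
  intro E Γ _ _ _ _ p hp hi hL
  exact part1 n X w hw E Γ p hp hi (growth_of_liouville hw E Γ p hp hL).folner

theorem fdAll_of_dense (hw : IsKahler w) {x : X} (h : CurveDense w x) : FDAll w :=
  fun E _ _ p hp hs => H66.FDs.fdStarZ w hw.toIsHermitian x h E p hp hs

theorem tri (hw : IsKahler w) (hFD : FDAll w) (E Γ : Type) [TopologicalSpace E]
    [ConnectedSpace E] [Group Γ] [MulAction Γ E] (p : E → X) (hp : IsGalois Γ p) :
    PropertyT Γ ∨ VirtIndicable Γ ∨ HasNonsolvableRep Γ := by
  rcases va1 w hw hFD E Γ p hp with h | h | h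
  · exact Or.inl (propertyT_of h)
  · exact Or.inr (Or.inl h)
  · exact Or.inr (Or.inr (nonsolvableRep_of h))

theorem tri_pi (hw : IsKahler w) (hFD : FDAll w) (x : X) :
    PropertyT (FundamentalGroup X x) ∨ VirtIndicable (FundamentalGroup X x) ∨
      HasNonsolvableRep (FundamentalGroup X x) := by
  rcases va1_pi w hw hFD x with h | h | h
  · exact Or.inl (propertyT_of h)
  · exact Or.inr (Or.inl h)
  · exact Or.inr (Or.inr (nonsolvableRep_of h))

theorem fin_or_ind (hw : IsKahler w) (hFD : FDAll w) (x : X) (hx : VirtCurveConnected n X x) :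
    Finite (FundamentalGroup X x) ∨ VirtIndicable (FundamentalGroup X x) := by
  obtain ⟨U, Q, hx, hU, hfi, hQ, hQU⟩ := hx
  exact vb w hw hFD U x hx Q hU hQ hQU hfi

end Vale.Agent.P284.H894.F
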