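import Vale.Agent.P284.H894.F.Defs
import Vale.Agent.P284.H977.T.Cl

/-! # P284 (helper894): passage to the definitions used in the statement. -/

open scoped Manifold ContDiff

noncomputable section

namespace Vale.Agent.P284.H894.F

open Vale.Agent.P272.K Vale.Agent.P284.H248 Vale.Agent.P284.H894 Vale.Agent.P284.H894.G
  Vale.Agent.P284.H894.V Vale.Agent.P284.H409.A Vale.Agent.P284.H409.T Vale.Agent.P284.H119.Kaz
  Vale.Agent.P284.H10.T

theorem rank_of_var {Q : Type*} [Group Q] {m : ℕ} (h : VAr Q m) : VirtAbelianRank Q m := h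

section
variable {Γ H : Type} [Group Γ] [NormedAddCommGroup H] [InnerProductSpace ℝ H]

/-- the linear isometry of an element -/
def IsOrthRep.lin {π : Γ → H → H} (h : IsOrthRep π) (g : Γ) : H →ₗᵢ[ℝ] H :=
  { (AddMonoidHom.toRealLinearMap ⟨⟨π g, by
        have := h.add g 0 0
        simpa using this⟩, h.add g⟩ (by
        refine (AddMonoidHomClass.isometry_of_norm
          (⟨⟨π g, by have := h.add g 0 0; simpa using this⟩, h.add g⟩ : H →+ H) ?_).continuous
        exact h.norm g) : H →L[ℝ] H).toLinearMap with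
    norm_map' := h.norm g }

theorem IsOrthRep.lin_apply {π : Γ → H → H} (h : IsOrthRep π) (g : Γ) (x : H) :
    h.lin g x = π g x := rfl

/-- the representation as a homomorphism -/
def IsOrthRep.hom {π : Γ → H → H} (h : IsOrthRep π) : Γ →* (H ≃ₗᵢ[ℝ] H) where
  toFun g :=
    { (h.lin g).toLinearMap with
      invFun := π g⁻¹
      left_inv := fun x => by
        change π g⁻¹ (π g x) = x
        rw [← h.mul, inv_mul_cancel, h.one]
      right_inv := fun x => by
        change π g (π g⁻¹ x) = x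
        rw [← h.mul, mul_inv_cancel, h.one]
      norm_map' := h.norm g }
  map_one' := by
    ext x
    exact h.one x
  map_mul' g g' := by
    ext x
    exact h.mul g g' x

theorem IsOrthRep.hom_apply {π : Γ → H → H} (h : IsOrthRep π) (g : Γ) (x : H) :
    h.hom g x = π g x := rfl

end

theorem propertyT_of {Γ : Type} [Group Γ] (h : Kazhdan Γ) : PropertyT Γ := by
  obtain ⟨S, ε, hε, h⟩ := h
  refine ⟨S, ε, hε, ?_⟩
  intro H _ _ _ π hπ ξ hξ hs
  obtain ⟨η, h1, h2⟩ := h H hπ.hom ξ hξ hs
  exact ⟨η, h1, h2⟩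

theorem nonsolvableRep_of {G : Type} [Group G] (h : NSRep G) : HasNonsolvableRep G := by
  obtain ⟨d, R, hR⟩ := h
  exact ⟨d, R, fun H hH hs => hR ⟨H, hH, hs⟩⟩

theorem abelianByT_of {n : ℕ} {A : Type} [Group A] (h : StrT n A) : AbelianByT n A := by
  obtain ⟨G, m, c, h1, h2, h3, h4, h5, h6⟩ := h
  exact ⟨G, m, c, h1, h2, h3, h4, h5, h6.imp propertyT_of nonsolvableRep_of⟩

end Vale.Agent.P284.H894.F
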