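import Vale.Agent.P284.H894.F.Defs

/-! # P284 (helper894): definitions of group theory used in the statement, continued. -/

namespace Vale.Agent.P284.H894.F

/-- `A` has a subgroup `G` of finite index which is an extension of `ℤᵐ`, `m ≤ 2 n`, by a finitely
generated group with property (T) all of whose amenable quotients are finite. -/
def AbelianByKazhdan (n : ℕ) (A : Type) [Group A] : Prop :=
  ∃ (G : Subgroup A) (m : ℕ) (c : G →* Multiplicative (Fin m → ℤ)), G.FiniteIndex ∧ m ≤ 2 * n ∧
    Function.Surjective c ∧ Group.FG c.ker ∧
    (∀ (Q : Type) [Group Q] (q : c.ker →* Q), Function.Surjective q →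
      Vale.Agent.P284.H894.G.Folner Q → Finite Q) ∧
    PropertyT c.ker

end Vale.Agent.P284.H894.F
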