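import Vale.Agent.P284.H894.F.ConvN
import Vale.Agent.P284.H894.F.DefsK
import Vale.Agent.P284.H409.K.Cor
import Vale.Agent.P284.H287.Mal

/-! # P284 (helper894): theorem K, in terms of the definitions used in the statement. -/

open scoped Manifold ContDiff
open Set Function

noncomputable section

namespace Vale.Agent.P284.H894.F

open Vale.Agent.P272.K Vale.Agent.P284.H248 Vale.Agent.P284.H894 Vale.Agent.P284.H894.G
  Vale.Agent.P284.H894.V Vale.Agent.P284.H409.A Vale.Agent.P284.H409.K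

variable {N n : ℕ} {X : Type} [TopologicalSpace X] [ChartedSpace (Cm n) X]
  [T2Space X] [CompactSpace X] [ConnectedSpace X] [IsManifold 𝓘(ℂ, Cm n) ω X]
  {w : Chart n X → Cm n → Matrix (Fin n) (Fin n) ℂ} {Φ : Cm N → X}

theorem malStmt : MalStmt := fun _ _ _ d R q hq => Vale.Agent.P284.H287.Mal.malcev d R q hq

theorem part4N (hK : KFinal) (hw : IsKahler w) (hΦ : HasFiniteOrderN w Φ) (x : X)
    (hx : CurveConnected n X x) (R : Type) [Group R] [Group.ResiduallyFinite R]
    (q : FundamentalGroup X x →* R) (hq : Surjective q) : VirtAbelianRank R (2 * n) := by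
  obtain ⟨Ψ, h⟩ := exists_fo hw hΦ
  exact resFin hK w hw Ψ h x hx R q hq

theorem part5N (hK : KFinal) (hw : IsKahler w) (hΦ : HasFiniteOrderN w Φ) (x : X)
    (hx : CurveConnected n X x) : AbelianByKazhdan n (FundamentalGroup X x) := by
  obtain ⟨Ψ, h⟩ := exists_fo hw hΦ
  obtain ⟨G, m, c, h1, h2, h3, h4, h5, h6⟩ :=
    strK Vale.Agent.P284.H977.T.mainPiT hK malStmt w hw Ψ h x hx
  exact ⟨G, m, c, h1, h2, h3, h4, h5, propertyT_of h6⟩

end Vale.Agent.P284.H894.F
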