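import Vale.Agent.P284.H894.F.Conv
import Vale.Agent.P284.H894.F.DefsN
import Vale.Agent.P284.H636.NN
import Vale.Agent.P284.H894.V.Conv

/-! # P284 (helper894): maps `ℂᴺ → X` of finite order. -/

open scoped Manifold ContDiff
open Set Function

noncomputable section

namespace Vale.Agent.P284.H894.F

open Vale.Agent.P272.K Vale.Agent.P284.H248 Vale.Agent.P284.H894 Vale.Agent.P284.H894.G
  Vale.Agent.P284.H894.V Vale.Agent.P284.H409.A

variable {N n : ℕ} {X : Type} [TopologicalSpace X] [ChartedSpace (Cm n) X]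

theorem onCurve_of_rangeN {Φ : Cm N → X} (hΦ : ContMDiff 𝓘(ℂ, Cm N) 𝓘(ℂ, Cm n) ω Φ)
    (ζ : Cm N) : OnCurve n X (Φ ζ) (Φ 0) := by
  refine ⟨fun t => Φ ((1 - t) • ζ), ?_, by simp, by simp⟩
  refine hΦ.comp ?_
  refine ContDiff.contMDiff ?_
  exact (contDiff_const.sub contDiff_id).smul contDiff_const

/-- an image of `ℂᴺ` is connected by entire curves -/
theorem curveConnected_of_surjective {Φ : Cm N → X}
    (hΦ : ContMDiff 𝓘(ℂ, Cm N) 𝓘(ℂ, Cm n) ω Φ) (hs : Surjective Φ) (x : X) :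
    CurveConnected n X x := by
  refine ⟨univ, {Φ 0}, isOpen_univ, mem_univ _,
    fun c => ⟨c, Path.Homotopic.refl c, fun t => mem_univ _⟩, countable_singleton _,
    fun y _ => ⟨Φ 0, rfl, ?_⟩⟩
  obtain ⟨ζ, rfl⟩ := hs y
  exact Relation.ReflTransGen.single (onCurve_of_rangeN hΦ ζ)

variable [T2Space X] [CompactSpace X] [ConnectedSpace X] [IsManifold 𝓘(ℂ, Cm n) ω X]
  {w : Chart n X → Cm n → Matrix (Fin n) (Fin n) ℂ} {Φ : Cm N → X}

/-- reduction to a map `ℂⁿ → X` -/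
theorem exists_fo (hw : IsKahler w) (hΦ : HasFiniteOrderN w Φ) :
    ∃ Ψ : Cm n → X, FiniteOrder w Ψ := by
  obtain ⟨A, -, h⟩ := H636.nn hw.toIsHermitian hΦ
  exact ⟨_, h.fo⟩

theorem part1N (hw : IsKahler w) (hΦ : HasFiniteOrderN w Φ) (x : X) :
    AbelianByT n (FundamentalGroup X x) := by
  obtain ⟨Ψ, h⟩ := exists_fo hw hΦ
  exact abelianByT_of (Vale.Agent.P284.H977.T.mainPiT n X w hw Ψ h x)

theorem part2N (hw : IsKahler w) (hΦ : HasFiniteOrderN w Φ) (x : X) (Q : Type) [Group Q]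
    (q : FundamentalGroup X x →* Q) (hq : Surjective q) (hQ : Folner Q) :
    VirtAbelianRank Q (2 * n) := by
  obtain ⟨Ψ, h⟩ := exists_fo hw hΦ
  exact Vale.Agent.P284.H409.A.mainPiA' n X w hw Ψ h x Q q hq hQ

theorem part3N (hw : IsKahler w) (hΦ : HasFiniteOrderN w Φ) (L : LineBundle n X)
    (hL : Positive L) (x : X) (hx : CurveConnected n X x) :
    VirtAbelianRank (FundamentalGroup X x) (2 * n) := by
  obtain ⟨Ψ, h⟩ := exists_fo hw hΦ
  obtain ⟨U, Q, hU, hx, hc, hQ, hch⟩ := hx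
  exact (Vale.Agent.P284.H409.A.proj' w hw L hL Ψ h).1 U x Q hU hx hc hQ hch

end Vale.Agent.P284.H894.F
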