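import Mathlib.Analysis.InnerProductSpace.Basic
import Mathlib.GroupTheory.Index
import Mathlib.GroupTheory.Finiteness
import Mathlib.GroupTheory.Solvable
import Mathlib.LinearAlgebra.Matrix.GeneralLinearGroup.Defs
import Mathlib.Data.Real.Basic
import Vale.Agent.P284.H894.G.Amen

/-! # P284 (helper894): definitions of group theory used in the statement. -/

namespace Vale.Agent.P284.H894.F

/-- `Q` has an abelian subgroup of finite index generated by at most `m` elements. -/
def VirtAbelianRank (Q : Type*) [Group Q] (m : ℕ) : Prop :=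
  ∃ A : Subgroup Q, A.FiniteIndex ∧ (∀ a ∈ A, ∀ b ∈ A, a * b = b * a) ∧
    ∃ S : Finset Q, S.card ≤ m ∧ Subgroup.closure (S : Set Q) = A

/-- `π` is an orthogonal representation of `Γ` on the real Hilbert space `H`. -/
structure IsOrthRep {Γ H : Type} [Group Γ] [NormedAddCommGroup H] [InnerProductSpace ℝ H]
    (π : Γ → H → H) : Prop where
  add : ∀ g x y, π g (x + y) = π g x + π g y
  norm : ∀ g x, ‖π g x‖ = ‖x‖
  one : ∀ x, π 1 x = x
  mul : ∀ g h x, π (g * h) x = π g (π h x)

/-- Kazhdan's property (T): for a finite set `S` and some `ε > 0`, every orthogonal representation with a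
unit vector which the elements of `S` move by at most `ε` has a nonzero invariant vector. -/
def PropertyT (Γ : Type) [Group Γ] : Prop :=
  ∃ (S : Finset Γ) (ε : ℝ), 0 < ε ∧ ∀ (H : Type) [NormedAddCommGroup H] [InnerProductSpace ℝ H]
    [CompleteSpace H] (π : Γ → H → H), IsOrthRep π → ∀ ξ : H, ‖ξ‖ = 1 →
    (∀ s ∈ S, ‖π s ξ - ξ‖ ≤ ε) → ∃ η : H, η ≠ 0 ∧ ∀ g, π g η = η

/-- `G` has a finite-dimensional real representation whose image has no solvable subgroup of finite
index. -/
def HasNonsolvableRep (G : Type) [Group G] : Prop :=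
  ∃ (d : ℕ) (R : G →* Matrix.GeneralLinearGroup (Fin d) ℝ),
    ∀ H : Subgroup R.range, H.FiniteIndex → ¬ Group.IsSolvable H

/-- `A` has a subgroup `G` of finite index which is an extension of `ℤᵐ`, `m ≤ 2 n`, by a finitely
generated group `K` all of whose amenable quotients are finite; `K` has property (T), or `G` has a
finite-dimensional real representation whose image is not virtually solvable. -/
def AbelianByT (n : ℕ) (A : Type) [Group A] : Prop :=
  ∃ (G : Subgroup A) (m : ℕ) (c : G →* Multiplicative (Fin m → ℤ)), G.FiniteIndex ∧ m ≤ 2 * n ∧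
    Function.Surjective c ∧ Group.FG c.ker ∧
    (∀ (Q : Type) [Group Q] (q : c.ker →* Q), Function.Surjective q →
      Vale.Agent.P284.H894.G.Folner Q → Finite Q) ∧
    (PropertyT c.ker ∨ HasNonsolvableRep G)

end Vale.Agent.P284.H894.F
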