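import Vale.Agent.P284.H894.F.DefsG
import Mathlib.MeasureTheory.Measure.Lebesgue.Complex
import Mathlib.MeasureTheory.Measure.Haar.OfBasis
import Mathlib.MeasureTheory.Constructions.Pi

/-!
# P284 (helper894): almost every point of an open set is joined by entire curves. FROZEN.
-/

open scoped Manifold ContDiff

noncomputable section

namespace Vale.Agent.P284.H894.F

open Vale.Agent.P272.K Vale.Agent.P284.H894.G MeasureTheory

variable (n : ℕ) {X : Type} [TopologicalSpace X] [ChartedSpace (Cm n) X]

/-- `A` has measure zero in all charts of the atlas. -/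
def NullSet (A : Set X) : Prop :=
  ∀ e : Chart n X, e ∈ atlas (Cm n) X → volume (e '' (A ∩ e.source)) = 0

/-- There are an open set `U` containing `x` such that the image of `π₁(U, x)` in `π₁(X, x)` has finite
index, and a countable set `Q`, such that almost every point of `U` is joined by a chain of entire curves
to a point of `Q`. -/
def AECurveConnected (x : X) : Prop :=
  ∃ (U Q : Set X) (hx : x ∈ U), IsOpen U ∧ (piImage U x hx).FiniteIndex ∧
    Q.Countable ∧ NullSet n {y ∈ U | ¬ ∃ q ∈ Q, Chain n X y q}

end Vale.Agent.P284.H894.F
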