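import Vale.Agent.P284.H894.V.Defs

/-!
# P284 (helper894): entire curves of finite order through a point. FROZEN.
-/

open scoped Manifold ContDiff ComplexConjugate
open Filter Set Metric MeasureTheory

noncomputable section

namespace Vale.Agent.P284.H894.F

open Vale.Agent.P272.K

variable {n : ℕ} {X : Type} [TopologicalSpace X] [ChartedSpace (Cm n) X]

/-- The square of the speed of the curve `f : ℂ → X` for the metric `w`, in the preferred chart. -/
def speedSq (w : Chart n X → Cm n → Matrix (Fin n) (Fin n) ℂ) (f : ℂ → X) (t : ℂ) : ℝ :=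
  (∑ k, ∑ l, w (chartAt (Cm n) (f t)) (chartAt (Cm n) (f t) (f t)) k l *
    deriv (fun s => chartAt (Cm n) (f t) (f s) k) t *
    conj (deriv (fun s => chartAt (Cm n) (f t) (f s) l) t)).re

/-- `f : ℂ → X` is an entire curve through `x`, with velocity `v` there, of order at most `ρ`: the area of
the disc of radius `r` is at most `C r ^ ρ`. -/
structure FiniteOrderCurve (w : Chart n X → Cm n → Matrix (Fin n) (Fin n) ℂ) (x : X) (v : Cm n)
    (ρ : ℝ) (f : ℂ → X) : Prop where
  holo : ContMDiff 𝓘(ℂ) 𝓘(ℂ, Cm n) ω f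
  base : f 0 = x
  vel : ∀ k, deriv (fun s => chartAt (Cm n) x (f s) k) 0 = v k
  order : ∃ C : ℝ, ∀ r : ℝ, 1 ≤ r → ∫ t in ball (0 : ℂ) r, speedSq w f t ≤ C * r ^ ρ

/-- For some `ρ`, the directions at `x` which are tangent to entire curves of order at most `ρ` contain
an open set. -/
def CurveRich (w : Chart n X → Cm n → Matrix (Fin n) (Fin n) ℂ) (x : X) : Prop :=
  ∃ (ρ : ℝ) (D : Set (Cm n)), (interior D).Nonempty ∧ ∀ v ∈ D, ∃ f, FiniteOrderCurve w x v ρ f

end Vale.Agent.P284.H894.F
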