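import Vale.Agent.P284.H894.F.DefsA
import Vale.Agent.P284.H894.F.DefsC

/-!
# P284 (helper894): entire curves whose velocities span the tangent spaces. FROZEN.
-/

open scoped Manifold ContDiff

noncomputable section

namespace Vale.Agent.P284.H894.F

open Vale.Agent.P272.K Vale.Agent.P284.H894.G

variable (n : ℕ) {X : Type} [TopologicalSpace X] [ChartedSpace (Cm n) X]

/-- The velocities at `x`, in the preferred chart, of the entire curves through `x`. -/
def velocities (x : X) : Set (Cm n) :=
  {v | ∃ f : ℂ → X, ContMDiff 𝓘(ℂ) 𝓘(ℂ, Cm n) ω f ∧ f 0 = x ∧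
    ∀ k, deriv (fun s => chartAt (Cm n) x (f s) k) 0 = v k}

/-- There is an open set `U` containing `x` such that the image of `π₁(U, x)` in `π₁(X, x)` has finite
index, and at almost every point of `U` the velocities of the entire curves span the tangent space. -/
def AECurveSpanned (x : X) : Prop :=
  ∃ (U : Set X) (hx : x ∈ U), IsOpen U ∧ (piImage U x hx).FiniteIndex ∧
    NullSet n {y ∈ U | Submodule.span ℂ (velocities n y) ≠ ⊤}

variable {n} in
/-- For some `ρ`, at almost every point of `X` the velocities of the entire curves of order at most `ρ`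
span the tangent space. -/
def AEFiniteOrderSpanned (w : Chart n X → Cm n → Matrix (Fin n) (Fin n) ℂ) : Prop :=
  ∃ ρ : ℝ, NullSet n
    {x : X | Submodule.span ℂ {v : Cm n | ∃ f, FiniteOrderCurve w x v ρ f} ≠ ⊤}

end Vale.Agent.P284.H894.F
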