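import Vale.Agent.P284.H894.F.ConvK
import Vale.Agent.P284.H446.KG6
import Vale.Agent.P284.H5.K2
import Vale.Agent.P284.H639.K8
import Vale.Agent.P284.H35.K1c
import Vale.Agent.P284.H731.K6
import Vale.Agent.P284.H10.KA
import Vale.Agent.P284.H977.K.KG9
import Vale.Agent.P284.H977.K.K4
import Vale.Agent.P284.H913.K3
import Vale.Agent.P284.H119.K5S
import Vale.Agent.P284.H913.V3
import Vale.Agent.P284.H66.V4

/-! # P284, theorem K (helper894): assembly -/

noncomputable section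

namespace Vale.Agent.P284.H894.F

open Vale.Agent.P284.H409.K

theorem kAConcl : KAConcl :=
  H10.K.kAStmt H5.K2.k2Stmt H913.K.k3Stmt H977.K.k4Stmt H119.K.k5Stmt H913.V.v3Stmt H66.v4Stmt

theorem kFinal : KFinal :=
  H977.K.kg9Stmt (H446.K.kg6Stmt H35.K.k1Stmt (H731.K6.k6Stmt kAConcl) H639.K7.k7Stmt
    H639.K7.k8Stmt)

end Vale.Agent.P284.H894.F
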