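import Vale.Agent.P284.H894.F.ConvN
import Vale.Agent.P284.H894.F.DefsG
import Vale.Agent.P284.H446.GFi
import Vale.Agent.P284.H10.CY.KAll
import Vale.Agent.P284.H636.CY.Cl

/-! # P284, theorem CY (helper894): assembly -/

open scoped Manifold ContDiff
open Set Function

noncomputable section

namespace Vale.Agent.P284.H894.F

open Vale.Agent.P272.K Vale.Agent.P284.H248 Vale.Agent.P284.H894 Vale.Agent.P284.H894.G
  Vale.Agent.P284.H894.V Vale.Agent.P284.H409.A

theorem kacyAll : H446.K.KACYAll := H10.CY.kacyAll H636.CY.cyEx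

theorem kg6 : H446.K.KG6All := H446.K.kg6All kacyAll

theorem piImage_univ {X : Type} [TopologicalSpace X] (x : X) :
    piImage (univ : Set X) x (mem_univ x) = ⊤ := by
  rw [eq_top_iff]
  rintro g -
  obtain ⟨c, rfl⟩ := Quotient.exists_rep (g : Path.Homotopic.Quotient _ _)
  let c' : Path (⟨x, mem_univ x⟩ : (univ : Set X)) ⟨x, mem_univ x⟩ :=
    { toFun := fun t => ⟨c t, mem_univ _⟩
      continuous_toFun := by fun_prop
      source' := by simp
      target' := by simp }
  refine ⟨(Quotient.mk _ c' : Path.Homotopic.Quotient _ _), ?_⟩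
  rfl

section
variable {N n : ℕ} {X : Type} [TopologicalSpace X] [ChartedSpace (Cm n) X]

/-- an image of `ℂᴺ` is connected by entire curves -/
theorem virtCurveConnected_of_surjective {Φ : Cm N → X}
    (hΦ : ContMDiff 𝓘(ℂ, Cm N) 𝓘(ℂ, Cm n) ω Φ) (hs : Surjective Φ) (x : X) :
    VirtCurveConnected n X x := by
  refine ⟨univ, {Φ 0}, mem_univ _, isOpen_univ, ?_, countable_singleton _,
    fun y _ => ⟨Φ 0, rfl, ?_⟩⟩
  · rw [piImage_univ]
    infer_instance
  · obtain ⟨ζ, rfl⟩ := hs y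
    exact Relation.ReflTransGen.single (onCurve_of_rangeN hΦ ζ)

variable [T2Space X] [CompactSpace X] [ConnectedSpace X] [IsManifold 𝓘(ℂ, Cm n) ω X]
  {w : Chart n X → Cm n → Matrix (Fin n) (Fin n) ℂ} {Φ : Cm N → X}

theorem part6N (hw : IsKahler w) (hΦ : HasFiniteOrderN w Φ) (x : X)
    (hx : VirtCurveConnected n X x) : VirtAbelianRank (FundamentalGroup X x) (2 * n) := by
  obtain ⟨Ψ, h⟩ := exists_fo hw hΦ
  obtain ⟨U, Q, hx, hU, hfi, hQ, hQU⟩ := hx
  exact H446.K.piY_fi kg6 w hw Ψ h U x hx Q hU hQ hQU hfi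

theorem part7N (hw : IsKahler w) (hΦ : HasFiniteOrderN w Φ) (hs : Surjective Φ) (x : X) :
    VirtAbelianRank (FundamentalGroup X x) (2 * n) :=
  part6N hw hΦ x (virtCurveConnected_of_surjective hΦ.holo hs x)

end

end Vale.Agent.P284.H894.F
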