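import Vale.Agent.P284.H894.F.Y

/-! # P284 (helper894): growth of the fundamental group of a compact Kähler manifold -/

open scoped Manifold ContDiff
open Set Function

noncomputable section

namespace Vale.Agent.P284.H894.F

open Vale.Agent.P272.K Vale.Agent.P284.H248 Vale.Agent.P284.H894 Vale.Agent.P284.H894.G
  Vale.Agent.P284.H894.V Vale.Agent.P284.H409.A

variable {n : ℕ} {X : Type} [TopologicalSpace X] [ChartedSpace (Cm n) X]
  [T2Space X] [CompactSpace X] [ConnectedSpace X] [IsManifold 𝓘(ℂ, Cm n) ω X]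
  {w : Chart n X → Cm n → Matrix (Fin n) (Fin n) ℂ}

theorem growth_of_liouville (hw : IsKahler w) (E Γ : Type) [TopologicalSpace E] [ConnectedSpace E]
    [Group Γ] [MulAction Γ E] (p : E → X) (hp : IsGalois Γ p)
    (hL : ∀ u : E → ℝ, IsPsh (n := n) p u → (∃ B : ℝ, ∀ y, |u y| ≤ B) → ∀ y y', u y = u y') :
    SubexpGrowth Γ := by
  intro S hS
  by_contra hcon
  obtain ⟨y⟩ : Nonempty E := inferInstance
  obtain ⟨t, _, u, hu, hb, y', _, hlt⟩ :=
    kg6 n X w hw E Γ p hp S hS hcon y Set.univ Filter.univ_mem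
  have h1 := hL u hu ⟨1, fun z => by
    rw [abs_le]; exact ⟨by linarith [(hb z).1], (hb z).2⟩⟩ y (t • y')
  exact (lt_irrefl _ (h1 ▸ hlt))

theorem growth_piImage (hw : IsKahler w) (U : Set X) (x : X) (hx : x ∈ U) (Q : Set X)
    (hU : IsOpen U) (hQ : Q.Countable) (hQU : ∀ y ∈ U, ∃ q ∈ Q, Chain n X y q) :
    SubexpGrowth (piImage U x hx) :=
  H446.K.growth_img kg6 w hw U x hx Q hU hQ hQU

theorem growth_virt (hw : IsKahler w) (x : X) (hx : VirtCurveConnected n X x) :
    SubexpGrowth (FundamentalGroup X x) := by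
  obtain ⟨U, Q, hx, hU, hfi, hQ, hQU⟩ := hx
  exact H446.K.growth_fi kg6 w hw U x hx Q hU hQ hQU hfi

end Vale.Agent.P284.H894.F
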